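import Vale.Agent.P181.R2.H182.VDefs
import Vale.Agent.P181.R2.H188.W2
import Mathlib.Algebra.MvPolynomial.Funext

set_option autoImplicit false
set_option linter.all false

/-!
# P181: a separating function of a block whose degree is polynomial in `r`

The points lie on the rational normal curve; the factors are the two term bracket polynomials which
fix one cross ratio.
-/

namespace Vale.Agent.P181.SQ.H727

open Vale.Agent.P181 Vale.Agent.P181.H280 Vale.Agent.P181.FR Vale.Agent.P181.H188W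
  Vale.Agent.P181.VT MvPolynomial

/-- Points of the rational normal curve. -/
noncomputable def mc {n : ℕ} (m : ℕ) (t : Fin n → ℂ) : Fin n → Fin m → ℂ :=
  fun s k => t s ^ (k : ℕ)

/-- The bracket of `x`, `y` and the points `T`. -/
noncomputable def br {n u : ℕ} (T : Fin u → Fin n) (x y : Fin n) :
    (Fin n → Fin (u + 2) → ℂ) → ℂ :=
  dt (le_refl (u + 2)) (Fin.cons x (Fin.cons y T : Fin (u + 1) → Fin n) : Fin (u + 2) → Fin n)

theorem br_mc {n u : ℕ} (T : Fin u → Fin n) (x y : Fin n) (ρ : Fin n → Fin n) (t : Fin n → ℂ) :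
    br T x y (fun s => mc (u + 2) t (ρ s)) = (t (ρ y) - t (ρ x)) *
      (∏ s, (t (ρ (T s)) - t (ρ x))) * (∏ s, (t (ρ (T s)) - t (ρ y))) *
      (Matrix.vandermonde (fun s => t (ρ (T s)))).det := by
  have h : br T x y (fun s => mc (u + 2) t (ρ s)) = (Matrix.vandermonde
      (Fin.cons (t (ρ x)) (Fin.cons (t (ρ y)) (fun s => t (ρ (T s))) : Fin (u + 1) → ℂ) :
        Fin (u + 2) → ℂ)).det := by
    unfold br dt
    congr 1
    ext j k
    rw [Matrix.of_apply, Matrix.vandermonde_apply]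
    unfold mc
    refine Fin.cases ?_ (fun j => ?_) j
    · rfl
    · refine Fin.cases ?_ (fun j => ?_) j
      · rfl
      · rfl
  rw [h, Matrix.det_vandermonde, Fin.prod_univ_succ, Fin.prod_univ_succ, Matrix.det_vandermonde,
    Fin.prod_Ioi_zero, Fin.prod_univ_succ]
  have h1 : ∏ j ∈ Finset.Ioi (Fin.succ (0 : Fin (u + 1))),
      ((Fin.cons (t (ρ x)) (Fin.cons (t (ρ y)) (fun s => t (ρ (T s))) : Fin (u + 1) → ℂ) :
        Fin (u + 2) → ℂ) j - (Fin.cons (t (ρ x)) (Fin.cons (t (ρ y)) (fun s => t (ρ (T s))) :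
          Fin (u + 1) → ℂ) : Fin (u + 2) → ℂ) (Fin.succ 0)) =
      ∏ s, (t (ρ (T s)) - t (ρ y)) := by
    rw [Fin.prod_Ioi_succ, Fin.prod_Ioi_zero]
    rfl
  have h2 : ∏ i : Fin u, ∏ j ∈ Finset.Ioi (Fin.succ (Fin.succ i)),
      ((Fin.cons (t (ρ x)) (Fin.cons (t (ρ y)) (fun s => t (ρ (T s))) : Fin (u + 1) → ℂ) :
        Fin (u + 2) → ℂ) j - (Fin.cons (t (ρ x)) (Fin.cons (t (ρ y)) (fun s => t (ρ (T s))) :
          Fin (u + 1) → ℂ) : Fin (u + 2) → ℂ) (Fin.succ (Fin.succ i))) =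
      ∏ i : Fin u, ∏ j ∈ Finset.Ioi i, (t (ρ (T j)) - t (ρ (T i))) := by
    refine Finset.prod_congr rfl fun i _ => ?_
    rw [Fin.prod_Ioi_succ, Fin.prod_Ioi_succ]
    rfl
  rw [h1, h2]
  show (t (ρ y) - t (ρ x)) * (∏ s, (t (ρ (T s)) - t (ρ x))) * ((∏ s, (t (ρ (T s)) - t (ρ y))) *
    ∏ i, ∏ j ∈ Finset.Ioi i, (t (ρ (T j)) - t (ρ (T i)))) = _
  ring

/-- The factor of one cross ratio. -/
noncomputable def EE {n u : ℕ} (t : Fin n → ℂ) (T : Fin u → Fin n) (i j k l x b c d : Fin n) :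
    (Fin n → Fin (u + 2) → ℂ) → ℂ :=
  ((t c - t x) * (t d - t b)) • (br T i j * br T k l) -
    ((t b - t x) * (t d - t c)) • (br T i k * br T j l)

theorem EE_mc {n u : ℕ} (T : Fin u → Fin n) (i j k l x b c d : Fin n) (ρ : Fin n → Fin n)
    (t : Fin n → ℂ) :
    EE t T i j k l x b c d (fun s => mc (u + 2) t (ρ s)) =
      (∏ s, (t (ρ (T s)) - t (ρ i))) * (∏ s, (t (ρ (T s)) - t (ρ j))) *
      (∏ s, (t (ρ (T s)) - t (ρ k))) * (∏ s, (t (ρ (T s)) - t (ρ l))) *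
      (Matrix.vandermonde (fun s => t (ρ (T s)))).det ^ 2 *
      ((t c - t x) * (t d - t b) * ((t (ρ j) - t (ρ i)) * (t (ρ l) - t (ρ k))) -
        (t b - t x) * (t d - t c) * ((t (ρ k) - t (ρ i)) * (t (ρ l) - t (ρ j)))) := by
  unfold EE
  rw [Pi.sub_apply, Pi.smul_apply, Pi.smul_apply, Pi.mul_apply, Pi.mul_apply, br_mc, br_mc, br_mc,
    br_mc, smul_eq_mul, smul_eq_mul]
  ring

/-- The degree vector of a bracket. -/
def dg1 {n u : ℕ} (T : Fin u → Fin n) (x y : Fin n) : Fin n → ℕ :=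
  Pi.single x 1 + (Pi.single y 1 + ∑ s, Pi.single (T s) 1)

theorem br_MPd {n u : ℕ} (T : Fin u → Fin n) (x y : Fin n) :
    br T x y ∈ MPd n (u + 2) (dg1 T x y) := by
  have h := dt_MPd (B := n) (le_refl (u + 2))
    (Fin.cons x (Fin.cons y T : Fin (u + 1) → Fin n) : Fin (u + 2) → Fin n)
  rw [Fin.sum_univ_succ, Fin.sum_univ_succ] at h
  exact h

theorem br_HWF {n u : ℕ} (T : Fin u → Fin n) (x y : Fin n) :
    HWF n (u + 2) (om (u + 2) (u + 2)) (br T x y) := dt_HWF _ _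

theorem EE_MPd {n u : ℕ} (t : Fin n → ℂ) (T : Fin u → Fin n) (i j k l x b c d : Fin n) :
    EE t T i j k l x b c d ∈ MPd n (u + 2) (dg1 T i j + dg1 T k l) := by
  have h1 := MPd_mul (br_MPd T i j) (br_MPd T k l)
  have h2 := MPd_mul (br_MPd T i k) (br_MPd T j l)
  have h3 : dg1 T i k + dg1 T j l = dg1 T i j + dg1 T k l := by
    unfold dg1
    abel
  rw [h3] at h2
  exact Submodule.sub_mem _ (Submodule.smul_mem _ _ h1) (Submodule.smul_mem _ _ h2)

theorem EE_HWF {n u : ℕ} (t : Fin n → ℂ) (T : Fin u → Fin n) (i j k l x b c d : Fin n) :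
    HWF n (u + 2) (2 • om (u + 2) (u + 2)) (EE t T i j k l x b c d) := by
  have h1 := HWF_mul (br_HWF T i j) (br_HWF T k l)
  have h2 := HWF_mul (br_HWF T i k) (br_HWF T j l)
  rw [← two_nsmul] at h1 h2
  intro g hg p
  unfold EE
  rw [Pi.sub_apply, Pi.smul_apply, Pi.smul_apply, h1 g hg p, h2 g hg p, Pi.sub_apply,
    Pi.smul_apply, Pi.smul_apply, smul_eq_mul, smul_eq_mul, smul_eq_mul, smul_eq_mul]
  ring

/-! ### Generic parameters -/

theorem exists_ne {n : ℕ} (P : MvPolynomial (Fin n) ℂ) (hP : P ≠ 0) : ∃ t, eval t P ≠ 0 := by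
  by_contra h
  push Not at h
  exact hP (MvPolynomial.funext fun x => by rw [h x, map_zero])

/-- The conditions on eight indices `i j k l x b c d`. -/
def Cnd {n : ℕ} (v : Fin 8 → Fin n) : Prop :=
  v 1 ≠ v 0 ∧ v 3 ≠ v 2 ∧ v 4 ≠ v 0 ∧ v 4 ≠ v 1 ∧ v 4 ≠ v 2 ∧ v 4 ≠ v 3 ∧ v 6 ≠ v 4 ∧ v 7 ≠ v 5 ∧
    v 6 ≠ v 5 ∧ v 7 ≠ v 4

noncomputable def PP {n : ℕ} (v : Fin 8 → Fin n) : MvPolynomial (Fin n) ℂ :=
  (X (v 6) - X (v 4)) * (X (v 7) - X (v 5)) * ((X (v 1) - X (v 0)) * (X (v 3) - X (v 2))) -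
    (X (v 5) - X (v 4)) * (X (v 7) - X (v 6)) * ((X (v 2) - X (v 0)) * (X (v 3) - X (v 1)))

theorem PP_ne {n : ℕ} (v : Fin 8 → Fin n) (hv : Cnd v) : PP v ≠ 0 := by
  classical
  obtain ⟨h10, h32, h40, h41, h42, h43, h64, h75, h65, h74⟩ := hv
  intro h
  let x : Fin n → ℂ := fun s => if s = v 5 then ((v 4 : Fin n) : ℕ) else ((s : ℕ) : ℂ)
  have hx : ∀ a b : Fin n, a ≠ b → ¬ (a = v 4 ∧ b = v 5) → ¬ (a = v 5 ∧ b = v 4) →
      x a - x b ≠ 0 := by
    intro a b hab h1 h2 h3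
    apply hab
    have h4 : x a = x b := sub_eq_zero.1 h3
    simp only [x] at h4
    by_cases ha : a = v 5
    · by_cases hb : b = v 5
      · rw [ha, hb]
      · rw [if_pos ha, if_neg hb] at h4
        have : ((v 4 : Fin n) : ℕ) = (b : ℕ) := by exact_mod_cast h4
        exact absurd ⟨ha, (Fin.ext this).symm⟩ h2
    · by_cases hb : b = v 5
      · rw [if_neg ha, if_pos hb] at h4
        have : (a : ℕ) = ((v 4 : Fin n) : ℕ) := by exact_mod_cast h4
        exact absurd ⟨Fin.ext this, hb⟩ h1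
      · rw [if_neg ha, if_neg hb] at h4
        exact Fin.ext (by exact_mod_cast h4)
  have h54 : x (v 5) - x (v 4) = 0 := by
    simp only [x]
    by_cases h45 : v 4 = v 5
    · simp [h45]
    · simp [h45]
  have h0 := congrArg (eval x) h
  unfold PP at h0
  simp only [map_sub, map_mul, eval_X, map_zero] at h0
  rw [h54, zero_mul, zero_mul, sub_zero] at h0
  have a1 : x (v 6) - x (v 4) ≠ 0 := hx _ _ h64 (fun h => h64 h.1) (fun h => h65 h.1)
  have a2 : x (v 7) - x (v 5) ≠ 0 := hx _ _ h75 (fun h => h74 h.1) (fun h => h75 h.1)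
  have a3 : x (v 1) - x (v 0) ≠ 0 := hx _ _ h10 (fun h => h41 h.1.symm) (fun h => h40 h.2.symm)
  have a4 : x (v 3) - x (v 2) ≠ 0 := hx _ _ h32 (fun h => h43 h.1.symm) (fun h => h42 h.2.symm)
  exact mul_ne_zero (mul_ne_zero a1 a2) (mul_ne_zero a3 a4) h0

theorem exists_t (n : ℕ) : ∃ t : Fin n → ℂ, Function.Injective t ∧
    ∀ v : Fin 8 → Fin n, Cnd v → eval t (PP v) ≠ 0 := by
  classical
  let P : MvPolynomial (Fin n) ℂ :=
    (∏ v ∈ Finset.univ.filter (fun v : Fin 8 → Fin n => Cnd v), PP v) *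
      ∏ p ∈ Finset.univ.filter (fun p : Fin n × Fin n => p.1 ≠ p.2), (X p.1 - X p.2)
  have hP : P ≠ 0 := by
    refine mul_ne_zero (Finset.prod_ne_zero_iff.2 fun v hv => PP_ne v (Finset.mem_filter.1 hv).2)
      (Finset.prod_ne_zero_iff.2 fun p hp => ?_)
    intro h
    exact (Finset.mem_filter.1 hp).2 (X_injective (sub_eq_zero.1 h))
  obtain ⟨t, ht⟩ := exists_ne P hP
  simp only [P, map_mul, map_prod, map_sub, eval_X] at ht
  have h1 := Finset.prod_ne_zero_iff.1 (left_ne_zero_of_mul ht)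
  have h2 := Finset.prod_ne_zero_iff.1 (right_ne_zero_of_mul ht)
  refine ⟨t, fun a b hab => ?_, fun v hv => h1 v (Finset.mem_filter.2 ⟨Finset.mem_univ _, hv⟩)⟩
  by_contra hne
  exact h2 (a, b) (Finset.mem_filter.2 ⟨Finset.mem_univ _, hne⟩) (sub_eq_zero.2 hab)

theorem avoid {n : ℕ} (S : Finset (Fin n)) (a : ℕ) (h : S.card + a ≤ n) :
    ∃ f : Fin a → Fin n, Function.Injective f ∧ ∀ s, f s ∉ S := by
  classical
  have h1 : a ≤ (Finset.univ \ S).card := by
    rw [Finset.card_sdiff_of_subset (Finset.subset_univ S), Finset.card_univ, Fintype.card_fin]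
    omega
  obtain ⟨T, hT, hc⟩ := Finset.exists_subset_card_eq h1
  refine ⟨T.orderEmbOfFin hc, (T.orderEmbOfFin hc).injective, fun s hs => ?_⟩
  exact (Finset.mem_sdiff.1 (hT (Finset.orderEmbOfFin_mem T hc s))).2 hs

theorem sum_shift {n : ℕ} [NeZero n] (a : Fin n) :
    ∑ κ : Fin n, (Pi.single (κ + a) 1 : Fin n → ℕ) = fun _ => 1 := by
  classical
  have h := Equiv.sum_comp (Equiv.addRight a) (fun κ : Fin n => (Pi.single κ 1 : Fin n → ℕ))
  exact h.trans (Finset.univ_sum_single (fun _ : Fin n => 1))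

theorem sum_dg1 {n u : ℕ} [NeZero n] (T : Fin u → Fin n) (x y : Fin n) :
    ∑ κ : Fin n, dg1 (fun s => κ + T s) (κ + x) (κ + y) = fun _ => u + 2 := by
  unfold dg1
  rw [Finset.sum_add_distrib, Finset.sum_add_distrib, Finset.sum_comm, sum_shift, sum_shift,
    Finset.sum_congr rfl fun s _ => sum_shift (T s)]
  funext s
  simp only [Pi.add_apply, Finset.sum_const, Finset.card_univ, Fintype.card_fin, Pi.smul_apply,
    smul_eq_mul, mul_one]
  omega

/-! ### The separating function -/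

/-- The admissible quadruples. -/
def Quad (n : ℕ) [NeZero n] : Finset (Fin n × Fin n × Fin n × Fin n) :=
  Finset.univ.filter (fun v => v.1 ≠ 0 ∧ v.2.2.1 ≠ v.1 ∧ v.2.2.2 ≠ v.2.1 ∧ v.2.2.1 ≠ v.2.1 ∧
    v.2.2.2 ≠ v.1)

/-- The nonzero differences. -/
def Dif (n : ℕ) [NeZero n] : Finset (Fin n) := Finset.univ.filter (fun y => y ≠ 0)

noncomputable def q0 {n u : ℕ} [NeZero n] (T0 : Fin n → Fin u → Fin n) :
    (Fin n → Fin (u + 2) → ℂ) → ℂ :=
  ∏ p ∈ Finset.univ ×ˢ Dif n, br (fun s => p.1 + T0 p.2 s) (p.1 + 0) (p.1 + p.2)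

noncomputable def q1 {n u : ℕ} [NeZero n] (t : Fin n → ℂ) (f : Fin n → Fin 3 → Fin n)
    (T : Fin n → Fin u → Fin n) : (Fin n → Fin (u + 2) → ℂ) → ℂ :=
  ∏ p ∈ Finset.univ ×ˢ Quad n, EE t (fun s => p.1 + T p.2.1 s) (p.1 + 0) (p.1 + f p.2.1 0)
    (p.1 + f p.2.1 1) (p.1 + f p.2.1 2) (p.1 + p.2.1) (p.1 + p.2.2.1) (p.1 + p.2.2.2.1)
    (p.1 + p.2.2.2.2)

theorem q0_MPd {n u : ℕ} [NeZero n] (T0 : Fin n → Fin u → Fin n) :
    q0 T0 ∈ MPd n (u + 2) (fun _ => (Dif n).card * (u + 2)) := by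
  classical
  have h := MPd_prod (Finset.univ ×ˢ Dif n)
    (fun p : Fin n × Fin n => dg1 (fun s => p.1 + T0 p.2 s) (p.1 + 0) (p.1 + p.2)) _
    (fun p _ => br_MPd (fun s => p.1 + T0 p.2 s) (p.1 + 0) (p.1 + p.2))
  rw [Finset.sum_product_right, Finset.sum_congr rfl fun y _ => sum_dg1 (T0 y) 0 y] at h
  have e : ∑ _y ∈ Dif n, (fun _ : Fin n => u + 2) = fun _ => (Dif n).card * (u + 2) := by
    rw [Finset.sum_const]
    rfl
  rw [e] at h
  exact h

theorem q1_MPd {n u : ℕ} [NeZero n] (t : Fin n → ℂ) (f : Fin n → Fin 3 → Fin n)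
    (T : Fin n → Fin u → Fin n) :
    q1 t f T ∈ MPd n (u + 2) (fun _ => (Quad n).card * ((u + 2) + (u + 2))) := by
  classical
  have h := MPd_prod (Finset.univ ×ˢ Quad n)
    (fun p : Fin n × (Fin n × Fin n × Fin n × Fin n) =>
      dg1 (fun s => p.1 + T p.2.1 s) (p.1 + 0) (p.1 + f p.2.1 0) +
      dg1 (fun s => p.1 + T p.2.1 s) (p.1 + f p.2.1 1) (p.1 + f p.2.1 2)) _
    (fun p _ => EE_MPd t (fun s => p.1 + T p.2.1 s) (p.1 + 0) (p.1 + f p.2.1 0)
      (p.1 + f p.2.1 1) (p.1 + f p.2.1 2) (p.1 + p.2.1) (p.1 + p.2.2.1) (p.1 + p.2.2.2.1)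
      (p.1 + p.2.2.2.2))
  rw [Finset.sum_product_right, Finset.sum_congr rfl fun v _ => Finset.sum_add_distrib,
    Finset.sum_congr rfl fun v _ => congrArg₂ (· + ·) (sum_dg1 (T v.1) 0 (f v.1 0))
      (sum_dg1 (T v.1) (f v.1 1) (f v.1 2))] at h
  have e : ∑ _y ∈ Quad n, ((fun _ : Fin n => u + 2) + fun _ => u + 2) =
      fun _ => (Quad n).card * ((u + 2) + (u + 2)) := by
    rw [Finset.sum_const]
    rfl
  rw [e] at h
  exact h

theorem q0_HWF {n u : ℕ} [NeZero n] (T0 : Fin n → Fin u → Fin n) :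
    HWF n (u + 2) ((n * (Dif n).card) • om (u + 2) (u + 2)) (q0 T0) := by
  classical
  have h := HWF_prod (Finset.univ ×ˢ Dif n)
    (fun _ : Fin n × Fin n => om (u + 2) (u + 2)) _
    (fun p _ => br_HWF (fun s => p.1 + T0 p.2 s) (p.1 + 0) (p.1 + p.2))
  rw [Finset.sum_const, Finset.card_product, Finset.card_univ, Fintype.card_fin] at h
  exact h

theorem q1_HWF {n u : ℕ} [NeZero n] (t : Fin n → ℂ) (f : Fin n → Fin 3 → Fin n)
    (T : Fin n → Fin u → Fin n) :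
    HWF n (u + 2) ((n * (Quad n).card * 2) • om (u + 2) (u + 2)) (q1 t f T) := by
  classical
  have h := HWF_prod (Finset.univ ×ˢ Quad n)
    (fun _ : Fin n × (Fin n × Fin n × Fin n × Fin n) => 2 • om (u + 2) (u + 2)) _
    (fun p _ => EE_HWF t (fun s => p.1 + T p.2.1 s) (p.1 + 0) (p.1 + f p.2.1 0)
      (p.1 + f p.2.1 1) (p.1 + f p.2.1 2) (p.1 + p.2.1) (p.1 + p.2.2.1) (p.1 + p.2.2.2.1)
      (p.1 + p.2.2.2.2))
  rw [Finset.sum_const, Finset.card_product, Finset.card_univ, Fintype.card_fin, smul_smul] at h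
  exact h

theorem vdm_ne {n u : ℕ} {t : Fin n → ℂ} (ht : Function.Injective t) {e : Fin u → Fin n}
    (he : Function.Injective e) : (Matrix.vandermonde (fun s => t (e s))).det ≠ 0 :=
  Matrix.det_vandermonde_ne_zero_iff.2 (ht.comp he)

theorem prod_t_ne {n u : ℕ} {t : Fin n → ℂ} (ht : Function.Injective t) {e : Fin u → Fin n}
    {a : Fin n} (he : ∀ s, e s ≠ a) : ∏ s, (t (e s) - t a) ≠ 0 :=
  Finset.prod_ne_zero_iff.2 fun s _ h => he s (ht (sub_eq_zero.1 h))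

/-- The choices: `f y` gives the three other points of the cross ratio, `T y` and `T0 y` the
further points of the brackets. -/
def Good {n u : ℕ} [NeZero n] (f : Fin n → Fin 3 → Fin n) (T T0 : Fin n → Fin u → Fin n) : Prop :=
  ∀ y : Fin n, Function.Injective (f y) ∧ (∀ s, f y s ≠ 0 ∧ f y s ≠ y) ∧
    Function.Injective (T y) ∧ (∀ s, T y s ≠ 0 ∧ ∀ k, T y s ≠ f y k) ∧
    Function.Injective (T0 y) ∧ (∀ s, T0 y s ≠ 0 ∧ T0 y s ≠ y)

theorem exists_good (n u : ℕ) [NeZero n] (h : u + 5 ≤ n) :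
    ∃ (f : Fin n → Fin 3 → Fin n) (T T0 : Fin n → Fin u → Fin n), Good f T T0 := by
  classical
  have h1 : ∀ y : Fin n, ∃ (f : Fin 3 → Fin n) (T T0 : Fin u → Fin n),
      Function.Injective f ∧ (∀ s, f s ≠ 0 ∧ f s ≠ y) ∧
      Function.Injective T ∧ (∀ s, T s ≠ 0 ∧ ∀ k, T s ≠ f k) ∧
      Function.Injective T0 ∧ (∀ s, T0 s ≠ 0 ∧ T0 s ≠ y) := by
    intro y
    have c0 : ({0, y} : Finset (Fin n)).card ≤ 2 := Finset.card_le_two
    obtain ⟨f, hf, hf'⟩ := avoid ({0, y} : Finset (Fin n)) 3 (by omega)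
    obtain ⟨T0, hT0, hT0'⟩ := avoid ({0, y} : Finset (Fin n)) u (by omega)
    have c1 : (insert 0 (Finset.univ.image f)).card ≤ 4 := by
      refine (Finset.card_insert_le _ _).trans ?_
      have := Finset.card_image_le (s := (Finset.univ : Finset (Fin 3))) (f := f)
      rw [Finset.card_univ, Fintype.card_fin] at this
      omega
    obtain ⟨T, hT, hT'⟩ := avoid (insert 0 (Finset.univ.image f)) u (by omega)
    refine ⟨f, T, T0, hf, fun s => ⟨fun h => hf' s ?_, fun h => hf' s ?_⟩, hT,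
      fun s => ⟨fun h => hT' s ?_, fun k h => hT' s ?_⟩, hT0,
      fun s => ⟨fun h => hT0' s ?_, fun h => hT0' s ?_⟩⟩
    · rw [h]; exact Finset.mem_insert_self _ _
    · rw [h]; exact Finset.mem_insert_of_mem (Finset.mem_singleton_self _)
    · rw [h]; exact Finset.mem_insert_self _ _
    · rw [h]; exact Finset.mem_insert_of_mem (Finset.mem_image_of_mem _ (Finset.mem_univ _))
    · rw [h]; exact Finset.mem_insert_self _ _
    · rw [h]; exact Finset.mem_insert_of_mem (Finset.mem_singleton_self _)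
  choose f T T0 h2 using h1
  exact ⟨f, T, T0, h2⟩

theorem q0_ne {n u : ℕ} [NeZero n] {f : Fin n → Fin 3 → Fin n} {T T0 : Fin n → Fin u → Fin n}
    (hg : Good f T T0) {t : Fin n → ℂ} (ht : Function.Injective t) :
    q0 T0 (mc (u + 2) t) ≠ 0 := by
  unfold q0
  rw [Finset.prod_apply]
  refine Finset.prod_ne_zero_iff.2 fun p hp => ?_
  have hy : p.2 ≠ 0 := (Finset.mem_filter.1 (Finset.mem_product.1 hp).2).2
  obtain ⟨_, _, _, _, g5, g6⟩ := hg p.2
  have e := br_mc (fun s => p.1 + T0 p.2 s) (p.1 + 0) (p.1 + p.2) id t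
  simp only [id_eq] at e
  have e' : (fun s => mc (u + 2) t s) = mc (u + 2) t := rfl
  rw [e'] at e
  rw [e]
  refine mul_ne_zero (mul_ne_zero (mul_ne_zero ?_ ?_) ?_) ?_
  · intro h
    exact hy (add_left_cancel (ht (sub_eq_zero.1 h)))
  · exact prod_t_ne ht (e := fun s => p.1 + T0 p.2 s) fun s h => (g6 s).1 (add_left_cancel h)
  · exact prod_t_ne ht (e := fun s => p.1 + T0 p.2 s) fun s h => (g6 s).2 (add_left_cancel h)
  · exact vdm_ne ht (e := fun s => p.1 + T0 p.2 s) fun a b h => g5 (add_left_cancel h)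

theorem q1_ne {n u : ℕ} [NeZero n] {f : Fin n → Fin 3 → Fin n} {T T0 : Fin n → Fin u → Fin n}
    (hg : Good f T T0) {t : Fin n → ℂ} (ht : Function.Injective t)
    (ht' : ∀ v : Fin 8 → Fin n, Cnd v → eval t (PP v) ≠ 0) :
    q1 t f T (mc (u + 2) t) ≠ 0 := by
  unfold q1
  rw [Finset.prod_apply]
  refine Finset.prod_ne_zero_iff.2 fun p hp => ?_
  obtain ⟨hy, v1, v2, v3, v4⟩ := (Finset.mem_filter.1 (Finset.mem_product.1 hp).2).2
  obtain ⟨g1, g2, g3, g4, _, _⟩ := hg p.2.1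
  have e := EE_mc (fun s => p.1 + T p.2.1 s) (p.1 + 0) (p.1 + f p.2.1 0)
      (p.1 + f p.2.1 1) (p.1 + f p.2.1 2) (p.1 + p.2.1) (p.1 + p.2.2.1) (p.1 + p.2.2.2.1)
      (p.1 + p.2.2.2.2) id t
  simp only [id_eq] at e
  have e' : (fun s => mc (u + 2) t s) = mc (u + 2) t := rfl
  rw [e'] at e
  rw [e]
  refine mul_ne_zero (mul_ne_zero (mul_ne_zero (mul_ne_zero (mul_ne_zero ?_ ?_) ?_) ?_)
    (pow_ne_zero _ ?_)) ?_
  · exact prod_t_ne ht (e := fun s => p.1 + T p.2.1 s) fun s h => (g4 s).1 (add_left_cancel h)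
  · exact prod_t_ne ht (e := fun s => p.1 + T p.2.1 s) fun s h => (g4 s).2 0 (add_left_cancel h)
  · exact prod_t_ne ht (e := fun s => p.1 + T p.2.1 s) fun s h => (g4 s).2 1 (add_left_cancel h)
  · exact prod_t_ne ht (e := fun s => p.1 + T p.2.1 s) fun s h => (g4 s).2 2 (add_left_cancel h)
  · exact vdm_ne ht (e := fun s => p.1 + T p.2.1 s) fun a b h => g3 (add_left_cancel h)
  · have h := ht' ![p.1 + 0, p.1 + f p.2.1 0, p.1 + f p.2.1 1, p.1 + f p.2.1 2, p.1 + p.2.1,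
      p.1 + p.2.2.1, p.1 + p.2.2.2.1, p.1 + p.2.2.2.2] ?_
    · unfold PP at h
      simp only [map_sub, map_mul, eval_X] at h
      exact h
    · refine ⟨?_, ?_, ?_, ?_, ?_, ?_, ?_, ?_, ?_, ?_⟩
      · exact fun h => (g2 0).1 (add_left_cancel h)
      · exact fun h => absurd (g1 (add_left_cancel h)) (by decide)
      · exact fun h => hy (add_left_cancel h)
      · exact fun h => (g2 0).2 (add_left_cancel h).symm
      · exact fun h => (g2 1).2 (add_left_cancel h).symm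
      · exact fun h => (g2 2).2 (add_left_cancel h).symm
      · exact fun h => v1 (add_left_cancel h)
      · exact fun h => v2 (add_left_cancel h)
      · exact fun h => v3 (add_left_cancel h)
      · exact fun h => v4 (add_left_cancel h)

theorem q0_zero {n u : ℕ} [NeZero n] {T0 : Fin n → Fin u → Fin n} {t : Fin n → ℂ}
    {ρ : Fin n → Fin n} (hρ : ¬ Function.Injective ρ) :
    q0 T0 (fun s => mc (u + 2) t (ρ s)) = 0 := by
  unfold Function.Injective at hρ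
  push Not at hρ
  obtain ⟨x, y, hxy, hne⟩ := hρ
  unfold q0
  rw [Finset.prod_apply]
  refine Finset.prod_eq_zero (i := (x, y - x)) (Finset.mem_product.2 ⟨Finset.mem_univ _,
    Finset.mem_filter.2 ⟨Finset.mem_univ _, fun h => hne (sub_eq_zero.1 h).symm⟩⟩) ?_
  rw [br_mc]
  have e : x + (y - x) = y := add_sub_cancel x y
  have e2 : t (ρ (x + (y - x))) - t (ρ (x + 0)) = 0 := by
    rw [e, add_zero, hxy, sub_self]
  show (t (ρ (x + (y - x))) - t (ρ (x + 0))) * _ * _ * _ = 0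
  rw [e2, zero_mul, zero_mul, zero_mul]

theorem q1_zero {n u : ℕ} [NeZero n] {f : Fin n → Fin 3 → Fin n} {T T0 : Fin n → Fin u → Fin n}
    (hg : Good f T T0) {t : Fin n → ℂ} {ρ : Fin n → Fin n} (hρ : Function.Injective ρ)
    (h1 : ρ ≠ id) : q1 t f T (fun s => mc (u + 2) t (ρ s)) = 0 := by
  obtain ⟨i, hi⟩ := Function.ne_iff.1 h1
  rw [id_eq] at hi
  have hy : ρ i - i ≠ 0 := fun h => hi (sub_eq_zero.1 h)
  obtain ⟨g1, g2, _, _, _, _⟩ := hg (ρ i - i)
  have k0 : i ≠ i + f (ρ i - i) 0 := fun h => (g2 0).1 (add_left_cancel (a := i)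
    (by rw [add_zero]; exact h.symm))
  have k1 : i ≠ i + f (ρ i - i) 1 := fun h => (g2 1).1 (add_left_cancel (a := i)
    (by rw [add_zero]; exact h.symm))
  have k2 : i ≠ i + f (ρ i - i) 2 := fun h => (g2 2).1 (add_left_cancel (a := i)
    (by rw [add_zero]; exact h.symm))
  have k3 : f (ρ i - i) 2 ≠ f (ρ i - i) 0 := fun h => absurd (g1 h) (by decide)
  have k4 : f (ρ i - i) 1 ≠ f (ρ i - i) 0 := fun h => absurd (g1 h) (by decide)
  unfold q1
  rw [Finset.prod_apply]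
  refine Finset.prod_eq_zero (i := (i, (ρ i - i, ρ (i + f (ρ i - i) 0) - i,
    ρ (i + f (ρ i - i) 1) - i, ρ (i + f (ρ i - i) 2) - i))) (Finset.mem_product.2
    ⟨Finset.mem_univ _, Finset.mem_filter.2 ⟨Finset.mem_univ _, hy, ?_, ?_, ?_, ?_⟩⟩) ?_
  · exact fun h => k1 (hρ (sub_left_inj.1 h)).symm
  · exact fun h => k3 (add_left_cancel (hρ (sub_left_inj.1 h)))
  · exact fun h => k4 (add_left_cancel (hρ (sub_left_inj.1 h)))
  · exact fun h => k2 (hρ (sub_left_inj.1 h)).symm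
  · rw [EE_mc]
    simp only [add_sub_cancel, add_zero]
    ring

theorem sepGen (n u : ℕ) (hn : u + 5 ≤ n) : ∃ (N0 N1 : ℕ) (q : (Fin n → Fin (u + 2) → ℂ) → ℂ)
    (t : Fin n → ℂ), Function.Injective t ∧ N0 ≤ (u + 2) * (n + 2 * n ^ 4) ∧
      q ∈ MP n (u + 2) N0 ∧ HWF n (u + 2) (N1 • om (u + 2) (u + 2)) q ∧
      q (mc (u + 2) t) ≠ 0 ∧
      ∀ ρ : Fin n → Fin n, ρ ≠ id → q (fun s => mc (u + 2) t (ρ s)) = 0 := by
  classical
  haveI : NeZero n := ⟨by omega⟩
  obtain ⟨f, T, T0, hg⟩ := exists_good n u hn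
  obtain ⟨t, ht, ht'⟩ := exists_t n
  refine ⟨(Dif n).card * (u + 2) + (Quad n).card * ((u + 2) + (u + 2)),
    n * (Dif n).card + n * (Quad n).card * 2, q0 T0 * q1 t f T, t, ht, ?_, ?_, ?_, ?_, ?_⟩
  · have c1 : (Dif n).card ≤ n := by
      refine (Finset.card_le_univ _).trans ?_
      rw [Fintype.card_fin]
    have c2 : (Quad n).card ≤ n ^ 4 := by
      refine (Finset.card_le_univ _).trans (le_of_eq ?_)
      rw [Fintype.card_prod, Fintype.card_prod, Fintype.card_prod, Fintype.card_fin]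
      ring
    calc (Dif n).card * (u + 2) + (Quad n).card * ((u + 2) + (u + 2))
        ≤ n * (u + 2) + n ^ 4 * ((u + 2) + (u + 2)) :=
          Nat.add_le_add (Nat.mul_le_mul_right _ c1) (Nat.mul_le_mul_right _ c2)
      _ = (u + 2) * (n + 2 * n ^ 4) := by ring
  · have h := MPd_mul (q0_MPd (u := u) T0) (q1_MPd t f T)
    exact h
  · rw [add_smul]
    exact HWF_mul (q0_HWF T0) (q1_HWF t f T)
  · exact mul_ne_zero (q0_ne hg ht) (q1_ne hg ht ht')
  · intro ρ hρ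
    rw [Pi.mul_apply]
    by_cases h : Function.Injective ρ
    · rw [q1_zero hg h hρ, mul_zero]
    · rw [q0_zero h, zero_mul]

theorem mc_det {n m : ℕ} {t : Fin n → ℂ} (ht : Function.Injective t) {e : Fin m → Fin n}
    (he : Function.Injective e) : (Matrix.of fun j k : Fin m => mc m t (e j) k).det ≠ 0 :=
  vdm_ne ht he

/-- A separating function whose degree is polynomial in the number of rows. -/
theorem sepP (r : ℕ) (hr : 1 ≤ r) : ∃ (N0 N1 : ℕ) (q : (Fin (nn r) → Fin (r + 1) → ℂ) → ℂ)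
    (z : Fin (nn r) → Fin (r + 1) → ℂ), N0 ≤ 243 * (r + 1) ^ 5 ∧ SepQ r N0 N1 q z := by
  obtain ⟨u, rfl⟩ : ∃ u, r = u + 1 := ⟨r - 1, by omega⟩
  obtain ⟨N0, N1, q, t, ht, hN, hq1, hq2, hq3, hq4⟩ := sepGen (nn (u + 1)) u (by
    show u + 5 ≤ (u + 1 + 1) + ((u + 1) + (u + 1 + 1))
    omega)
  refine ⟨N0, N1, q, mc (u + 2) t, hN.trans ?_, hq1, hq2, hq3, hq4, ?_⟩
  · have e : nn (u + 1) = 3 * u + 5 := by
      show (u + 1 + 1) + ((u + 1) + (u + 1 + 1)) = 3 * u + 5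
      omega
    rw [e]
    have e1 : 3 * u + 5 ≤ 3 * (u + 2) := by omega
    have e2 : (3 * u + 5) ^ 4 ≤ (3 * (u + 2)) ^ 4 := Nat.pow_le_pow_left e1 4
    have e3 : 3 * (u + 2) ≤ 3 * (u + 2) ^ 4 := by
      have : (u + 2) ^ 1 ≤ (u + 2) ^ 4 := Nat.pow_le_pow_right (by omega) (by omega)
      rw [pow_one] at this
      omega
    calc (u + 2) * (3 * u + 5 + 2 * (3 * u + 5) ^ 4)
        ≤ (u + 2) * (3 * (u + 2) ^ 4 + 2 * (3 * (u + 2)) ^ 4) :=
          Nat.mul_le_mul_left _ (Nat.add_le_add (e1.trans e3) (Nat.mul_le_mul_left _ e2))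
      _ = 165 * (u + 2) ^ 5 := by ring
      _ ≤ 243 * (u + 1 + 1) ^ 5 := Nat.mul_le_mul_right _ (by omega)
  · have hWA : (WA (mc (u + 2) t : Fin (nn (u + 1)) → Fin (u + 2) → ℂ)).det ≠ 0 :=
      mc_det ht (e := fun i : Fin (u + 2) =>
        (Fin.castAdd ((u + 1) + (u + 1 + 1)) i : Fin (nn (u + 1))))
        (fun a b h => Fin.castAdd_injective _ _ h)
    have hWC : (WC (mc (u + 2) t : Fin (nn (u + 1)) → Fin (u + 2) → ℂ)).det ≠ 0 :=
      mc_det ht (e := fun v : Fin (u + 2) =>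
        (Fin.natAdd (u + 1 + 1) (Fin.natAdd (u + 1) v) : Fin (nn (u + 1))))
        (fun a b h => Fin.natAdd_injective _ _ (Fin.natAdd_injective _ _ h))
    have hWB : ∀ i, (WB (mc (u + 2) t : Fin (nn (u + 1)) → Fin (u + 2) → ℂ) i).det ≠ 0 := by
      intro i
      obtain ⟨g, hgd⟩ : ∃ g : Fin (u + 1 + 1) → Fin (nn (u + 1)), g = Fin.cons (Fin.castAdd _ i)
        (fun v : Fin (u + 1) => Fin.natAdd (u + 1 + 1) (Fin.castAdd (u + 1 + 1) v)) := ⟨_, rfl⟩
      have hinj : Function.Injective g := by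
        rw [hgd, Fin.cons_injective_iff]
        constructor
        · rintro ⟨v, hv⟩
          have := congrArg Fin.val hv
          simp only [Fin.val_natAdd, Fin.val_castAdd] at this
          have := i.2
          omega
        · exact fun a b h => Fin.castAdd_injective _ _ (Fin.natAdd_injective _ _ h)
      have e : WB (mc (u + 2) t : Fin (nn (u + 1)) → Fin (u + 2) → ℂ) i =
          Matrix.of fun j k => mc (u + 2) t (g j) k := by
        funext j
        refine Fin.cases ?_ (fun v => ?_) j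
        · funext k
          rw [Matrix.of_apply, hgd]
          rfl
        · funext k
          rw [Matrix.of_apply, hgd]
          rfl
      rw [e]
      exact mc_det ht hinj
    unfold Yb
    rw [Matrix.det_mul, Matrix.det_adjugate, Matrix.det_diagonal]
    refine mul_ne_zero (pow_ne_zero _ hWA) (Finset.prod_ne_zero_iff.2 fun i _ => ?_)
    exact mul_ne_zero (hWB i) hWC

end Vale.Agent.P181.SQ.H727
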